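import Mathlib
import Vale.Agent.Lib.P243.Defs
import Vale.Agent.Lib.P243.R3.Defs
import Vale.Agent.Lib.P243.R3.M5ab
import Vale.Agent.Lib.P243.R3.M5c
import Vale.Agent.Lib.P243.R3.M5d
import Vale.Agent.Lib.P243.R3.M5ef

/-!
# P243, `r_3 > 1/3`, module M6 (independent copy, helper90): every convex body has a
calibration with constant below 3

`M6h90_exists_good_of` derives the calibration from the four facts about `Ahat` that the
modules M1f, M1g, M3a and M4 provide (they enter as hypotheses), and from the landed bump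
modules M5a to M5f.
-/

namespace Vale.Agent.Lib.P243.R3

open MeasureTheory Set

theorem M6h90_Ahat_zero (K : Set E3) : Ahat K 0 = 0 := by
  unfold Ahat
  rw [segment_same]
  simp

/-- The choice of the scale `τ`. -/
theorem M6h90_exists_tau {vK D C5 : ℝ} (hv : 0 < vK) (hD : 0 < D) (hC : 0 ≤ C5) :
    ∃ τ : ℝ, 0 < τ ∧ τ ≤ 1 ∧ τ ≤ D ∧ C5 * τ ^ 2 ≤ τ / (2 * D) * vK / 2 := by
  have hden : 0 < 4 * D * (C5 + 1) := by positivity
  obtain ⟨τ, hτdef⟩ : ∃ τ : ℝ, τ = min 1 (min D (vK / (4 * D * (C5 + 1)))) := ⟨_, rfl⟩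
  have hτpos : 0 < τ := by
    rw [hτdef]
    exact lt_min one_pos (lt_min hD (div_pos hv hden))
  have hτv : τ * (4 * D * (C5 + 1)) ≤ vK := by
    have h : τ ≤ vK / (4 * D * (C5 + 1)) := by
      rw [hτdef]
      exact (min_le_right _ _).trans (min_le_right _ _)
    rwa [le_div_iff₀ hden] at h
  refine ⟨τ, hτpos, ?_, ?_, ?_⟩
  · rw [hτdef]
    exact min_le_left _ _
  · rw [hτdef]
    exact (min_le_right _ _).trans (min_le_left _ _)
  · have h3 : C5 * τ ^ 2 * (4 * D) ≤ τ * vK := by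
      nlinarith [mul_le_mul_of_nonneg_left hτv hτpos.le, mul_pos (mul_pos hτpos hτpos) hD]
    have h4 : τ / (2 * D) * vK / 2 = τ * vK / (4 * D) := by
      field_simp
      ring
    rw [h4, le_div_iff₀ (by positivity)]
    exact h3

/-- The final estimate for pairs in the compact set `W`. -/
theorem M6h90_arith_in {vK IB ε η a A Θ : ℝ} (hv : 0 < vK) (hIBv : IB ≤ vK)
    (hε0 : 0 < ε) (hεη : ε * (3 * vK) ≤ η / 2) (hη0 : 0 < η)
    (hηM : η ≤ 3 * vK) (ha0 : 0 ≤ a) (hA0 : 0 ≤ A) (hAη : A ≤ 3 * vK - η)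
    (hΘ : 3 - η / (2 * vK) ≤ Θ) :
    ((1 + ε) - ε * a) * A ≤ Θ * ((1 + ε) * vK - ε * IB) := by
  have hIge : vK ≤ (1 + ε) * vK - ε * IB := by
    nlinarith [mul_nonneg hε0.le (sub_nonneg.mpr hIBv)]
  have h1 : ((1 + ε) - ε * a) * A ≤ (1 + ε) * (3 * vK - η) := by
    apply mul_le_mul _ hAη hA0 (by positivity)
    nlinarith [mul_nonneg hε0.le ha0]
  have h2 : (1 + ε) * (3 * vK - η) ≤ 3 * vK - η / 2 := by
    nlinarith [mul_pos hε0 hη0]
  have h3 : 3 * vK - η / 2 = (3 - η / (2 * vK)) * vK := by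
    field_simp
  have h4 : 0 ≤ 3 - η / (2 * vK) := by
    have h : η / (2 * vK) ≤ 3 / 2 := by
      rw [div_le_iff₀ (by positivity)]
      linarith
    linarith
  calc ((1 + ε) - ε * a) * A ≤ 3 * vK - η / 2 := h1.trans h2
    _ = (3 - η / (2 * vK)) * vK := h3
    _ ≤ (3 - η / (2 * vK)) * ((1 + ε) * vK - ε * IB) := mul_le_mul_of_nonneg_left hIge h4
    _ ≤ Θ * ((1 + ε) * vK - ε * IB) := mul_le_mul_of_nonneg_right hΘ (by linarith)

/-- The final estimate for pairs outside the compact set `W`. -/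
theorem M6h90_arith_out {vK IB ε bt c0 a A Θ : ℝ} (hv : 0 < vK) (hIB0 : 0 ≤ IB)
    (hIBv : IB ≤ vK) (hε0 : 0 < ε) (hε1 : ε ≤ 1) (hbt : 0 < bt)
    (hc0 : c0 = IB / vK + bt / 4) (ha : c0 < a) (ha1 : a ≤ 1)
    (hAM : A ≤ 3 * vK) (hΘ : 3 - 3 * ε * bt / 8 ≤ Θ) :
    ((1 + ε) - ε * a) * A ≤ Θ * ((1 + ε) * vK - ε * IB) := by
  have hεbt : 0 < ε * bt := mul_pos hε0 hbt
  have hIge : vK ≤ (1 + ε) * vK - ε * IB := by
    nlinarith [mul_nonneg hε0.le (sub_nonneg.mpr hIBv)]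
  have hIle : (1 + ε) * vK - ε * IB ≤ 2 * vK := by
    nlinarith [mul_nonneg hε0.le hIB0, mul_nonneg (sub_nonneg.mpr hε1) hv.le]
  have hGnn : 0 ≤ (1 + ε) - ε * a := by
    nlinarith [mul_le_mul_of_nonneg_left ha1 hε0.le]
  have h1 : ((1 + ε) - ε * a) * A ≤ ((1 + ε) - ε * a) * (3 * vK) :=
    mul_le_mul_of_nonneg_left hAM hGnn
  have h2 : ((1 + ε) - ε * a) * (3 * vK) ≤ ((1 + ε) - ε * c0) * (3 * vK) := by
    apply mul_le_mul_of_nonneg_right _ (by positivity)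
    nlinarith [mul_le_mul_of_nonneg_left ha.le hε0.le]
  have h3 : ((1 + ε) - ε * c0) * (3 * vK)
      = 3 * ((1 + ε) * vK - ε * IB) - 3 * ε * bt * vK / 4 := by
    rw [hc0]
    field_simp
    ring
  have h4 : 3 * ((1 + ε) * vK - ε * IB) - 3 * ε * bt * vK / 4
      ≤ (3 - 3 * ε * bt / 8) * ((1 + ε) * vK - ε * IB) := by
    nlinarith [mul_le_mul_of_nonneg_left hIle hεbt.le]
  calc ((1 + ε) - ε * a) * A ≤ ((1 + ε) - ε * c0) * (3 * vK) := h1.trans h2
    _ = 3 * ((1 + ε) * vK - ε * IB) - 3 * ε * bt * vK / 4 := h3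
    _ ≤ (3 - 3 * ε * bt / 8) * ((1 + ε) * vK - ε * IB) := h4
    _ ≤ Θ * ((1 + ε) * vK - ε * IB) := mul_le_mul_of_nonneg_right hΘ (by linarith)

/-- Average and integral of the density `(1 + ε) - ε * b`. -/
theorem M6h90_density {K : Set E3} (hK : Body K) {b : E3 → ℝ} (hbc : Continuous b) (ε : ℝ)
    (p q : E3) :
    avgSeg (fun x => (1 + ε) - ε * b x) p q = (1 + ε) - ε * avgSeg b p q ∧
      ∫ x in K, ((1 + ε) - ε * b x) = (1 + ε) * (volume K).toReal - ε * ∫ x in K, b x := by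
  have hline : Continuous (fun t : ℝ => b (p + t • (q - p))) := hbc.comp (by fun_prop)
  have hvfin : volume K ≠ ⊤ := hK.compact.measure_lt_top.ne
  constructor
  · unfold avgSeg
    rw [intervalIntegral.integral_sub intervalIntegrable_const
      ((hline.const_mul ε).intervalIntegrable 0 1)]
    rw [intervalIntegral.integral_const, intervalIntegral.integral_const_mul]
    simp
  · have hint_b : IntegrableOn b K := hbc.continuousOn.integrableOn_compact hK.compact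
    have hint_c : IntegrableOn (fun _ : E3 => (1 + ε : ℝ)) K :=
      integrableOn_const hvfin
    rw [integral_sub hint_c (hint_b.const_mul ε), setIntegral_const, integral_const_mul]
    simp [Measure.real, mul_comm]

theorem M6h90_exists_good_of {K : Set E3} (hK : Body K)
    (hcont : Continuous (Ahat K))
    (hnn : ∀ w : E3, 0 ≤ Ahat K w)
    (hle : ∀ p ∈ K, ∀ q ∈ K, Ahat K (q - p) ≤ 3 * (volume K).toReal)
    (hhit : ∃ α β : Fin 3 → E3, (∀ j, α j ∈ K ∧ β j ∈ K) ∧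
      ∀ p ∈ K, ∀ q ∈ K, p ≠ q → Ahat K (q - p) = 3 * (volume K).toReal →
        (p ∈ ⋃ j, segment ℝ (α j) (β j)) ∨ (q ∈ ⋃ j, segment ℝ (α j) (β j))) :
    ∃ (g : E3 → ℝ) (Θ : ℝ), 0 < Θ ∧ Θ < 3 ∧ Good K g Θ := by
  obtain ⟨α, β, -, hV⟩ := hhit
  obtain ⟨V, hVdef⟩ : ∃ V : Set E3, V = ⋃ j, segment ℝ (α j) (β j) := ⟨_, rfl⟩
  rw [← hVdef] at hV
  have hVne : V.Nonempty := by
    rw [hVdef]
    exact ⟨α 0, mem_iUnion.mpr ⟨0, left_mem_segment ℝ _ _⟩⟩
  -- the volume of `K`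
  have hKm : MeasurableSet K := hK.compact.measurableSet
  have hvfin : volume K ≠ ⊤ := hK.compact.measure_lt_top.ne
  have hvpos0 : 0 < volume K :=
    lt_of_lt_of_le (isOpen_interior.measure_pos volume hK.int) (measure_mono interior_subset)
  have hdens := fun (b : E3 → ℝ) (hbc : Continuous b) (ε : ℝ) (p q : E3) =>
    M6h90_density hK hbc ε p q
  obtain ⟨vK, hvK⟩ : ∃ vK : ℝ, vK = (volume K).toReal := ⟨_, rfl⟩
  rw [← hvK] at hV hle hdens
  have hvpos : 0 < vK := by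
    rw [hvK]
    exact ENNReal.toReal_pos hvpos0.ne' hvfin
  -- a bound for the diameter
  obtain ⟨D0, hD0⟩ := Metric.isBounded_iff.mp hK.compact.isBounded
  obtain ⟨D, hD⟩ : ∃ D : ℝ, D = max D0 1 := ⟨_, rfl⟩
  have hDpos : 0 < D := by
    rw [hD]
    exact lt_of_lt_of_le one_pos (le_max_right _ _)
  have hDist : ∀ p ∈ K, ∀ q ∈ K, dist p q ≤ D := fun p hp q hq => by
    rw [hD]
    exact (hD0 hp hq).trans (le_max_left _ _)
  -- the integral of the bump and the scale `τ`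
  obtain ⟨C5, hC50, hC5⟩ := M5c_bump_integral_le hK α β
  rw [← hVdef] at hC5
  obtain ⟨τ, hτpos, hτ1, hτD, hτC⟩ := M6h90_exists_tau hvpos hDpos hC50
  obtain ⟨b, hb⟩ : ∃ b : E3 → ℝ, b = bump V τ := ⟨_, rfl⟩
  have hbc : Continuous b := by
    rw [hb]
    exact M5a_bump_continuous hVne hτpos
  have hb01 : ∀ x, 0 ≤ b x ∧ b x ≤ 1 := fun x => by
    rw [hb]
    exact M5b_bump_mem V hτpos x
  obtain ⟨IB, hIB⟩ : ∃ IB : ℝ, IB = ∫ x in K, b x := ⟨_, rfl⟩
  have hIB0 : 0 ≤ IB := by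
    rw [hIB]
    exact setIntegral_nonneg hKm (fun x _ => (hb01 x).1)
  obtain ⟨bt, hbt⟩ : ∃ bt : ℝ, bt = τ / (2 * D) := ⟨_, rfl⟩
  have hbtpos : 0 < bt := by
    rw [hbt]
    positivity
  have hbthalf : bt ≤ 1 / 2 := by
    rw [hbt, div_le_iff₀ (by positivity)]
    linarith
  have hIBle : IB ≤ bt * vK / 2 := by
    rw [hIB, hb, hbt]
    exact (hC5 τ hτpos hτ1).trans hτC
  have hIBv : IB ≤ vK := by
    nlinarith [mul_le_mul_of_nonneg_right hbthalf hvpos.le]
  -- averages of the bump along segments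
  have hline : ∀ p q : E3, Continuous (fun t : ℝ => b (p + t • (q - p))) := fun p q =>
    hbc.comp (by fun_prop)
  have ha0 : ∀ p q : E3, 0 ≤ avgSeg b p q := by
    intro p q
    unfold avgSeg
    exact intervalIntegral.integral_nonneg zero_le_one (fun t _ => (hb01 _).1)
  have ha1 : ∀ p q : E3, avgSeg b p q ≤ 1 := by
    intro p q
    unfold avgSeg
    have h := intervalIntegral.integral_mono_on (μ := volume) (zero_le_one' ℝ)
      ((hline p q).intervalIntegrable 0 1)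
      ((continuous_const (y := (1 : ℝ))).intervalIntegrable 0 1) (fun t _ => (hb01 _).2)
    simpa using h
  have heff : ∀ p ∈ K, ∀ q ∈ K, p ≠ q → Ahat K (q - p) = 3 * vK → bt ≤ avgSeg b p q := by
    intro p hp q hq hpq hA
    rw [hbt, hb]
    rcases hV p hp q hq hpq hA with h | h
    · exact M5d_avg_bump_ge h q hτpos hτD (hDist p hp q hq)
    · rw [M5e_avgSeg_symm]
      exact M5d_avg_bump_ge h p hτpos hτD (hDist q hq p hp)
  -- the compact set of pairs with a small average of `b`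
  obtain ⟨c0, hc0⟩ : ∃ c0 : ℝ, c0 = IB / vK + bt / 4 := ⟨_, rfl⟩
  have hc0lt : c0 < bt := by
    have h : IB / vK ≤ bt / 2 := by
      rw [div_le_iff₀ hvpos]
      linarith
    rw [hc0]
    linarith
  obtain ⟨W, hWdef⟩ : ∃ W : Set (E3 × E3),
      W = (K ×ˢ K) ∩ {pq | avgSeg b pq.1 pq.2 ≤ c0} := ⟨_, rfl⟩
  have hWc : IsCompact W := by
    rw [hWdef]
    exact (hK.compact.prod hK.compact).inter_right
      (isClosed_le (M5f_avgSeg_continuous hbc) continuous_const)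
  have hF : Continuous (fun pq : E3 × E3 => Ahat K (pq.2 - pq.1)) :=
    hcont.comp (continuous_snd.sub continuous_fst)
  have hWlt : ∀ p q : E3, (p, q) ∈ W → Ahat K (q - p) < 3 * vK := by
    intro p q hpqW
    rw [hWdef] at hpqW
    obtain ⟨⟨hp, hq⟩, hpq⟩ := hpqW
    by_cases hpq' : p = q
    · subst hpq'
      rw [sub_self, M6h90_Ahat_zero]
      positivity
    · refine lt_of_le_of_ne (hle p hp q hq) (fun hA => ?_)
      have h1 := heff p hp q hq hpq' hA
      have h2 : avgSeg b p q ≤ c0 := hpq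
      linarith
  obtain ⟨η, hη0, hηM, hη⟩ : ∃ η : ℝ, 0 < η ∧ η ≤ 3 * vK ∧
      ∀ p q : E3, (p, q) ∈ W → Ahat K (q - p) ≤ 3 * vK - η := by
    rcases W.eq_empty_or_nonempty with hW | hW
    · refine ⟨3 * vK, by positivity, le_rfl, fun p q hpq => ?_⟩
      rw [hW] at hpq
      exact absurd hpq (notMem_empty _)
    · obtain ⟨pq0, hpq0, hmax⟩ := hWc.exists_isMaxOn hW hF.continuousOn
      have h0 := hWlt pq0.1 pq0.2 hpq0
      refine ⟨3 * vK - Ahat K (pq0.2 - pq0.1), by linarith, by linarith [hnn (pq0.2 - pq0.1)],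
        fun p q hpq => ?_⟩
      have h1 : Ahat K (q - p) ≤ Ahat K (pq0.2 - pq0.1) := isMaxOn_iff.mp hmax (p, q) hpq
      linarith
  -- the density
  obtain ⟨ε, hε⟩ : ∃ ε : ℝ, ε = min 1 (η / (6 * vK)) := ⟨_, rfl⟩
  have hεpos : 0 < ε := by
    rw [hε]
    exact lt_min one_pos (div_pos hη0 (by positivity))
  have hε1 : ε ≤ 1 := by
    rw [hε]
    exact min_le_left _ _
  have hεη : ε * (3 * vK) ≤ η / 2 := by
    have h : ε ≤ η / (6 * vK) := by
      rw [hε]
      exact min_le_right _ _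
    rw [le_div_iff₀ (by positivity)] at h
    linarith
  have hεbt : 0 < ε * bt := mul_pos hεpos hbtpos
  have hεbt1 : ε * bt ≤ 1 / 2 := by
    nlinarith [mul_le_mul hε1 hbthalf hbtpos.le zero_le_one]
  obtain ⟨Θ, hΘ⟩ : ∃ Θ : ℝ, Θ = max (3 - η / (2 * vK)) (3 - 3 * ε * bt / 8) := ⟨_, rfl⟩
  have hΘ1 : 3 - η / (2 * vK) ≤ Θ := by
    rw [hΘ]
    exact le_max_left _ _
  have hΘ2 : 3 - 3 * ε * bt / 8 ≤ Θ := by
    rw [hΘ]
    exact le_max_right _ _
  refine ⟨fun x => (1 + ε) - ε * b x, Θ, ?_, ?_, ?_⟩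
  · have h : 0 < 3 - 3 * ε * bt / 8 := by linarith
    exact lt_of_lt_of_le h hΘ2
  · rw [hΘ]
    apply max_lt
    · have h : 0 < η / (2 * vK) := div_pos hη0 (by positivity)
      linarith
    · linarith
  unfold Good
  refine ⟨continuous_const.sub (continuous_const.mul hbc), fun x => ?_, ?_⟩
  · have h := hb01 x
    constructor
    · nlinarith [mul_le_mul_of_nonneg_left h.2 hεpos.le]
    · nlinarith [mul_nonneg hεpos.le h.1]
  intro p hp q hq
  obtain ⟨hG, hI⟩ := hdens b hbc ε p q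
  rw [hG, hI, ← hIB]
  by_cases hW : (p, q) ∈ W
  · exact M6h90_arith_in hvpos hIBv hεpos hεη hη0 hηM (ha0 p q) (hnn _) (hη p q hW) hΘ1
  · have hac : c0 < avgSeg b p q := by
      by_contra hcon
      apply hW
      rw [hWdef]
      exact ⟨⟨hp, hq⟩, not_lt.mp hcon⟩
    exact M6h90_arith_out hvpos hIB0 hIBv hεpos hε1 hbtpos hc0 hac (ha1 p q)
      (hle p hp q hq) hΘ2

end Vale.Agent.Lib.P243.R3
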